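import Vale.Agent.P028.Var

/-! From pair bounds to full measure. -/

namespace Vale.Agent.P028

open Finset Real MeasureTheory

lemma DD0 {ψ : ℕ → ℝ} (h0 : ∀ q, 0 ≤ ψ q) (e : ℕ × ℕ) : 0 ≤ DD ψ e :=
  le_max_of_le_left (mul_nonneg (h0 _) (by positivity))

lemma dyad {γ ψ m : ℕ → ℝ} {S : Finset ℕ} {β A : ℝ} (h0 : ∀ q, 0 ≤ ψ q) (m0 : ∀ q, 0 ≤ m q)
    (hβ : 0 < β) (hA : 0 ≤ A) (H : PB γ ψ m S (1 + β) A) {k : ℝ} (hk : 0 < k)
    {E : Finset (ℕ × ℕ)} (hE : E ⊆ S ×ˢ S) (h : ∀ e ∈ E, e.1 ≠ e.2 ∧ Ov γ (DD ψ e) e) :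
    ∑ e ∈ E, m e.1 * m e.2 / DD ψ e ≤
      (∑ q ∈ S, m q) ^ 2 / k + 2 * A * k ^ β * (1 / (1 - (1 / 2) ^ β)) := by
  have ex : ∀ e, 0 < DD ψ e ∧ DD ψ e ≤ k → ∃ j : ℕ, (1 / 2 : ℝ) ^ (j + 1) < DD ψ e / k ∧
      DD ψ e / k ≤ (1 / 2) ^ j := fun e he => exists_nat_pow_near_of_lt_one
    (div_pos he.1 hk) ((div_le_one hk).2 he.2) (by norm_num) (by norm_num)
  choose! J hJ using ex
  rw [← sum_filter_add_sum_filter_not E fun e => 0 < DD ψ e ∧ DD ψ e ≤ k, add_comm]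
  refine add_le_add ?_ ?_
  · rw [sq, sum_mul_sum, ← sum_product', sum_div]
    refine le_trans (sum_le_sum fun e he => ?_) (sum_le_sum_of_subset_of_nonneg
      ((filter_subset _ _).trans hE) fun e _ _ => div_nonneg (mul_nonneg (m0 _) (m0 _)) hk.le)
    rcases (DD0 h0 e).eq_or_lt with z | z
    · rw [← z, div_zero]; exact div_nonneg (mul_nonneg (m0 _) (m0 _)) hk.le
    · exact div_le_div_of_nonneg_left (mul_nonneg (m0 _) (m0 _)) hk
        (le_of_not_ge fun c => (mem_filter.1 he).2 ⟨z, c⟩)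
  rw [← sum_fiberwise_of_maps_to (g := J) fun e he => mem_image_of_mem _ he]
  refine le_trans ?_ (mul_le_mul_of_nonneg_left (geo (r := (1 / 2) ^ β) (by positivity)
    (rpow_lt_one (by norm_num) (by norm_num) hβ)
    (image J (E.filter fun e => 0 < DD ψ e ∧ DD ψ e ≤ k)) id (Set.injOn_id _)) (by positivity))
  rw [mul_sum]
  refine sum_le_sum fun j _ => ?_
  have y0 : 0 < k * (1 / 2) ^ j := by positivity
  have a := H _ y0 ((E.filter fun e => 0 < DD ψ e ∧ DD ψ e ≤ k).filter fun e => J e = j)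
    (((filter_subset _ _).trans (filter_subset _ _)).trans hE) fun e he => by
      obtain ⟨h1, rfl⟩ := mem_filter.1 he
      obtain ⟨h2, h3⟩ := mem_filter.1 h1
      have := (div_le_iff₀' hk).1 (hJ e h3).2
      obtain ⟨z, hz⟩ := (h e h2).2
      exact ⟨(h e h2).1, this, z, by linarith⟩
  rw [rpow_add y0, rpow_one, mul_rpow hk.le (by positivity), ← rpow_pow_comm (by norm_num)] at a
  refine le_of_mul_le_mul_left (a := k * (1 / 2) ^ j / 2) ?_ (by positivity)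
  rw [mul_sum]
  refine (le_trans (sum_le_sum fun e he => ?_) a).trans (le_of_eq (by simp only [id]; ring))
  obtain ⟨h1, rfl⟩ := mem_filter.1 he
  have h3 := (mem_filter.1 h1).2
  have := (lt_div_iff₀' hk).1 (hJ e h3).1
  rw [pow_succ] at this
  rw [← mul_div_assoc, div_le_iff₀ h3.1, mul_comm]
  exact mul_le_mul_of_nonneg_left (by linarith) (mul_nonneg (m0 _) (m0 _))

theorem full {γ ψ w : ℕ → ℝ} (h0 : ∀ q, 0 ≤ ψ q) (h1 : ∀ q, ψ q ≤ 1 / 2) (w0 : ∀ q, 0 ≤ w q)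
    (w1 : ∀ q, w q ≤ 1) {β K : ℝ} (hβ : 0 < β) (hK : 0 ≤ K)
    (H : ∀ (Q : ℕ) (M : ℝ), ∃ S : Finset ℕ, (∀ q ∈ S, Q < q) ∧ M ≤ ∑ q ∈ S, w q * ψ q ∧
      PB γ ψ (fun q => w q * ψ q) S (1 + β) (K * (∑ q ∈ S, w q * ψ q) ^ (5 / 3 : ℝ))) :
    ∀ᵐ x : ℝ, {q : ℕ | 0 < q ∧ |q * x - γ q - round (q * x - γ q)| < ψ q}.Infinite := by
  classical
  have : IsProbabilityMeasure (volume : Measure UnitAddCircle) := ⟨UnitAddCircle.measure_univ⟩
  have main : ∀ Q : ℕ, ∀ᵐ x : UnitAddCircle, ∃ q, Q < q ∧ x ∈ AA q (γ q) (ψ q) := by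
    intro Q
    set C := {x : UnitAddCircle | ¬ ∃ q, Q < q ∧ x ∈ AA q (γ q) (ψ q)}
    have hC : MeasurableSet C := by
      refine MeasurableSet.compl (s := {x | ∃ q, Q < q ∧ x ∈ AA q (γ q) (ψ q)}) ?_
      rw [Set.ofPred_exists]
      exact MeasurableSet.iUnion fun q => MeasurableSet.const _ |>.inter (meas_AA _ _ _)
    rw [ae_iff, ← measureReal_eq_zero_iff]
    by_contra c
    have c0 : 0 < volume.real C := lt_of_le_of_ne measureReal_nonneg (Ne.symm c)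
    have r1 : (1 / 2 : ℝ) ^ β < 1 := rpow_lt_one (by norm_num) (by norm_num) hβ
    set B := K * (volume.real C)⁻¹ ^ β * (1 / (1 - (1 / 2) ^ β))
    have B0 : 0 ≤ B := mul_nonneg (by positivity) (div_nonneg zero_le_one (by linarith))
    obtain ⟨S, s1, s2, s3⟩ := H Q (((1 + 2 * B) / volume.real C + 1) ^ 3)
    have m0 : ∀ q, 0 ≤ w q * ψ q := fun q => mul_nonneg (w0 q) (h0 q)
    have M0 : 0 ≤ ∑ q ∈ S, w q * ψ q := sum_nonneg fun q _ => m0 q
    have k1 := cheb volume S (fun q => AA q (γ q) (ψ q)) (fun q => meas_AA _ _ _) w hC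
      fun x hx q hq a => hx ⟨q, s1 q hq, a⟩
    have k2 := dyad h0 m0 hβ (by positivity) s3 (inv_pos.2 c0)
      (filter_subset (fun e => e.1 ≠ e.2 ∧ Ov γ (DD ψ e) e) _) fun e he => (mem_filter.1 he).2
    have e1 : ∑ q ∈ S, w q * volume.real (AA q (γ q) (ψ q)) = 2 * ∑ q ∈ S, w q * ψ q := by
      rw [mul_sum]
      refine sum_congr rfl fun q hq => ?_
      rw [vol_AA (by have := s1 q hq; omega) _ (h0 q) (h1 q)]; ring
    have k3 : ∑ e ∈ S ×ˢ S, w e.1 * w e.2 *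
        volume.real (AA e.1 (γ e.1) (ψ e.1) ∩ AA e.2 (γ e.2) (ψ e.2)) ≤
        ∑ e ∈ S ×ˢ S, (4 * (w e.1 * ψ e.1 * (w e.2 * ψ e.2)) +
          2 * (if e.1 = e.2 then w e.1 * ψ e.1 else 0) + 2 * if e.1 ≠ e.2 ∧ Ov γ (DD ψ e) e then
            w e.1 * ψ e.1 * (w e.2 * ψ e.2) / DD ψ e else 0) := sum_le_sum fun e he => by
      obtain ⟨q, r⟩ := e
      have a := s1 q (mem_product.1 he).1
      have b := s1 r (mem_product.1 he).2
      by_cases d : q = r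
      · subst d
        simp only [Set.inter_self, vol_AA (show q ≠ 0 by omega) _ (h0 q) (h1 q), if_true, ne_eq,
          not_true, false_and, if_false]
        nlinarith [m0 q, w1 q, mul_nonneg (m0 q) (m0 q)]
      · refine (mul_le_mul_of_nonneg_left (ov3 γ h0 h1 (show q ≠ 0 by omega) (show r ≠ 0 by omega))
          (mul_nonneg (w0 q) (w0 r))).trans (le_of_eq ?_)
        simp only [d, if_false, ne_eq, not_false_iff, true_and]
        split_ifs <;> ring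
    replace k1 := k1.trans k3
    have e3 : ∑ e ∈ S ×ˢ S, (if e.1 = e.2 then w e.1 * ψ e.1 else 0) = ∑ q ∈ S, w q * ψ q := by
      rw [sum_product]
      exact sum_congr rfl fun q hq => by simp [hq]
    rw [sum_add_distrib, sum_add_distrib, ← mul_sum, ← mul_sum, ← mul_sum, e3, ← sum_filter,
      sum_product' (f := fun a b => w a * ψ a * (w b * ψ b)), ← sum_mul_sum, e1] at k1
    clear k3 e3
    obtain ⟨t, t0, ht⟩ : ∃ t : ℝ, 0 ≤ t ∧ ∑ q ∈ S, w q * ψ q = t ^ 3 :=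
      ⟨_, rpow_nonneg M0 _, (rpow_inv_natCast_pow M0 (by norm_num)).symm⟩
    rw [ht] at k1 k2 s2
    have t1 := le_of_pow_le_pow_left₀ (by norm_num) t0 s2
    have e2 : (t ^ 3) ^ (5 / 3 : ℝ) = t ^ 5 := by
      rw [← rpow_natCast, ← rpow_mul t0, ← rpow_natCast]; norm_num
    rw [e2, div_inv_eq_mul] at k2
    have t2 : 1 + 2 * B < t * volume.real C := by
      rw [← div_lt_iff₀ c0]; linarith
    have t3 : 1 ≤ t := by
      have : 0 ≤ (1 + 2 * B) / volume.real C := by positivity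
      linarith
    have t4 := mul_lt_mul_of_pos_left t2 (show 0 < t ^ 5 by positivity)
    have t5 : t ^ 3 ≤ t ^ 5 := pow_le_pow_right₀ t3 (by norm_num)
    have t6 : 2 * (K * t ^ 5) * (volume.real C)⁻¹ ^ β * (1 / (1 - (1 / 2) ^ β)) = 2 * B * t ^ 5 := by
      simp only [B]; ring
    rw [t6] at k2
    linarith
  have k := ae_all_iff.2 main
  rw [← Measure.restrict_univ (μ := (volume : Measure ℝ)), ← iUnion_Ioc_add_intCast (0 : ℝ),
    ae_restrict_iUnion_iff]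
  intro n
  filter_upwards [(UnitAddCircle.measurePreserving_mk (0 + n)).quasiMeasurePreserving.ae k] with x hx
  refine Set.infinite_of_forall_exists_gt fun Q => ?_
  obtain ⟨q, a, b⟩ := hx Q
  exact ⟨q, ⟨by omega, mem_AA.1 b⟩, a⟩

end Vale.Agent.P028
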