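import Vale.Agent.P028.NT

/-! Pair bounds. -/

namespace Vale.Agent.P028

open Finset Real

noncomputable def DD (ψ : ℕ → ℝ) (e : ℕ × ℕ) : ℝ :=
  max (ψ e.1 * (e.2 / e.1.gcd e.2 : ℕ)) (ψ e.2 * (e.1 / e.2.gcd e.1 : ℕ))

def Ov (γ : ℕ → ℝ) (y : ℝ) (e : ℕ × ℕ) : Prop :=
  ∃ z : ℤ, |(e.2 / e.1.gcd e.2 : ℕ) * γ e.1 - (e.1 / e.2.gcd e.1 : ℕ) * γ e.2 - z| < 2 * y

def PB (γ ψ m : ℕ → ℝ) (S : Finset ℕ) (b A : ℝ) : Prop := ∀ y > 0, ∀ E ⊆ S ×ˢ S,
  (∀ e ∈ E, e.1 ≠ e.2 ∧ DD ψ e ≤ y ∧ Ov γ y e) → mu E m m ≤ A * y ^ b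

lemma dio {γ : ℝ} (h1 : Irrational γ) (h2 : ¬ Liouville γ) : ∃ n : ℕ, 0 < n ∧ ∀ k : ℕ, 0 < k →
    ∀ z : ℤ, 1 ≤ (2 * k : ℝ) ^ n * |k * γ - z| := by
  simp only [Liouville, not_forall, not_exists, not_and, not_lt] at h2
  obtain ⟨n, h⟩ := h2
  refine ⟨n + 1, by omega, fun k hk z => ?_⟩
  have k1 : (1 : ℝ) ≤ k := by exact_mod_cast hk
  have := h (2 * z) (2 * k) (by omega) (h1.ne_rational _ _)
  push_cast at this
  rw [show γ - 2 * z / (2 * k) = (k * γ - z) / k by field_simp, abs_div, abs_of_pos (a := (k : ℝ))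
    (by linarith), div_le_div_iff₀ (by positivity) (by linarith)] at this
  have h0 : 0 ≤ |k * γ - z| * (2 * k) ^ n := by positivity
  rw [pow_succ]
  nlinarith

lemma eulerN {η s : ℝ} (e0 : 0 < η) (hs : s ≤ 2 / 3) (hs0 : 0 < s) : ∃ C : ℝ, 0 < C ∧ ∀ X : ℕ,
    2 ≤ X → ∑ a ∈ Icc 1 X, (∏ p ∈ Pr X, cc η s (vl p a)) ^ 2 / a ≤ exp (C * 4) * (1 + log X) ^ C := by
  obtain ⟨C, C0, H⟩ := loc e0 hs hs0
  refine ⟨C, C0, fun X hX => ?_⟩
  have h1 := euler (val := vl) (f := fun p k => cc η s k ^ 2 / (p : ℝ) ^ k)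
    (fun p k => by positivity) (Pr X) _ (injT subset_rfl) fun p hp => H p (Pr_prime hp).two_le
  rw [← exp_sum, ← mul_sum] at h1
  have l0 : 0 < log (X : ℝ) := log_pos (by exact_mod_cast hX)
  calc _ = _ := sum_congr rfl fun a ha => by rw [prod_div_distrib, prodT ha, prod_pow]
    _ ≤ _ := h1
    _ ≤ exp (C * (log (log X) + 4)) :=
        exp_le_exp.2 (mul_le_mul_of_nonneg_left (P031.mertens_upper hX) C0.le)
    _ = exp (C * 4) * log X ^ C := by rw [rpow_def_of_pos l0, ← exp_add]; ring_nf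
    _ ≤ _ := by gcongr; linarith

theorem GN {γ : ℝ} {n : ℕ} (hn : 0 < n) (hd : ∀ k : ℕ, 0 < k → ∀ z : ℤ,
    1 ≤ (2 * k : ℝ) ^ n * |k * γ - z|) {s : ℝ} (hs : 1 / 2 < s) (hs' : s ≤ 2 / 3) :
    ∃ C c : ℝ, 0 < C ∧ 0 < c ∧ ∀ (X : ℕ) (S : Finset ℕ) (ψ m : ℕ → ℝ), 2 ≤ X → S ⊆ Icc 1 X →
    (∀ v, 0 ≤ m v) → (∀ v, m v ≤ ψ v) → PB (fun _ => γ) ψ m S ((2 + 1 / (2 * n)) * (1 - s))
      (C * (1 + log X) ^ c * (∑ v ∈ S, m v) ^ (2 * s)) := by
  classical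
  obtain ⟨η, e0, -, H⟩ := GG hs (by linarith)
  obtain ⟨C, C0, hC⟩ := eulerN e0 hs' (by linarith)
  refine ⟨((4 + exp (C * 4) ^ 2) * 4 ^ (1 / (2 * n) : ℝ)) ^ (1 - s), (2 + 2 * C) * (1 - s),
    by positivity, mul_pos (by positivity) (by linarith), fun X S ψ m hX hS h0 h1 y hy E hE hy' => ?_⟩
  set R := (Icc 1 X ×ˢ Icc 1 X).filter fun r => (r.1 ≠ r.2 ∧ Bo γ (2 * y) r.1 r.2) ∧
    ∀ p, vl p r.1 = 0 ∨ vl p r.2 = 0
  have k1 := unscale hy h0 (H vl (fun p r => vl p r.1 + vl p r.2)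
    (fun e => (e.2 / e.1.gcd e.2, e.1 / e.2.gcd e.1)) (Pr X) S S E R _ _
    (fun p hp => (Pr_prime hp).pos) ⟨hE, fun v => mul_nonneg (by positivity) (h0 v),
      fun v => mul_nonneg (by positivity) (h0 v)⟩ (injT hS) (injT hS) (fun e he => by
      have a := hS (mem_product.1 (hE he)).1
      have b := hS (mem_product.1 (hE he)).2
      have a' : e.1 ≠ 0 := by have := mem_Icc.1 a; omega
      have b' : e.2 ≠ 0 := by have := mem_Icc.1 b; omega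
      obtain ⟨c1, -, z, c3⟩ := hy' e he
      refine ⟨mem_filter.2 ⟨mem_product.2 ⟨div_mem b, div_mem a⟩, ⟨fun d => c1 ?_, z, ?_⟩,
        fun p => ?_⟩, fun p _ => ?_⟩
      · simp only [Nat.gcd_comm e.2] at d
        rw [← Nat.div_mul_cancel (Nat.gcd_dvd_left e.1 e.2), ← d,
          Nat.div_mul_cancel (Nat.gcd_dvd_right e.1 e.2)]
      · rwa [← sub_mul] at c3
      · simp only [vl_div a' b', vl_div b' a']; omega
      · simp only [vl_div a' b', vl_div b' a', Nat.dist]; omega)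
    fun e he => by
      have a := hS (mem_product.1 (hE he)).1
      have b := hS (mem_product.1 (hE he)).2
      rw [aaT a b, aaT b a, mul_assoc, mul_assoc, inv_mul_le_iff₀ hy, inv_mul_le_iff₀ hy, mul_one]
      exact ⟨(mul_le_mul_of_nonneg_right (h1 _) (by positivity)).trans
        ((le_max_left _ _).trans (hy' e he).2.1), (mul_le_mul_of_nonneg_right (h1 _)
        (by positivity)).trans ((le_max_right _ _).trans (hy' e he).2.1)⟩)
  have n0 : (0 : ℝ) < n := by exact_mod_cast hn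
  set u : ℝ := (4 * y) ^ (-(1 / (2 * n)) : ℝ) with hu
  have u0 : 0 < u := by positivity
  have u1 : (u ^ 2) ^ n * (4 * y) = 1 := by
    rw [← pow_mul, hu, ← rpow_natCast, ← rpow_mul (by positivity)]
    push_cast
    rw [neg_mul, one_div_mul_cancel (by positivity), rpow_neg_one, inv_mul_cancel₀ (by positivity)]
  have B0 : 0 < ⌈u ^ 2 / 2⌉₊ := Nat.ceil_pos.2 (by positivity)
  have k2 := sep (γ := γ) (y := 2 * y) B0 (fun a b hab ⟨z, hz⟩ => by
    obtain ⟨k, rfl⟩ := Nat.exists_eq_add_of_le hab.le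
    refine Nat.add_le_add_left (Nat.ceil_le.2 (le_of_not_gt fun c => ?_)) _
    have a1 := hd k (by omega) (-z)
    have a2 : |(k : ℝ) * γ - (-z : ℤ)| < 4 * y := by
      rw [abs_lt] at *; push_cast at *; constructor <;> linarith
    have a3 := pow_le_pow_left₀ (by positivity) (show (2 * k : ℝ) ≤ u ^ 2 by linarith) n
    have a4 := mul_lt_mul_of_le_of_lt_of_nonneg_of_pos a3 a2 (abs_nonneg _) (by positivity)
    linarith) X
  have L1 : 1 ≤ 1 + log (X : ℝ) := by linarith [log_natCast_nonneg X]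
  have k3 := hC X hX
  have k4 : ∑ r ∈ R, ∏ p ∈ Pr X, cc η s (vl p r.1 + vl p r.2) / (p : ℝ) ^ (vl p r.1 + vl p r.2) ≤
      u * (∑ r ∈ R, 1 / ((r.1 : ℝ) * r.2)) + u⁻¹ * ∑ r ∈ R,
      (∏ p ∈ Pr X, cc η s (vl p r.1)) ^ 2 / r.1 * ((∏ p ∈ Pr X, cc η s (vl p r.2)) ^ 2 / r.2) := by
    rw [mul_sum, mul_sum, ← sum_add_distrib]
    refine sum_le_sum fun r hr => ?_
    obtain ⟨a, -, b⟩ := mem_filter.1 hr
    obtain ⟨a1, a2⟩ := mem_product.1 a
    have c : ∀ p, cc η s (vl p r.1 + vl p r.2) = cc η s (vl p r.1) * cc η s (vl p r.2) :=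
      fun p => by rcases b p with d | d <;> simp [d, cc]
    simp only [c, pow_add, prod_div_distrib, prod_mul_distrib, prodT a1, prodT a2]
    have : (0 : ℝ) < r.1 := by exact_mod_cast (mem_Icc.1 a1).1
    have : (0 : ℝ) < r.2 := by exact_mod_cast (mem_Icc.1 a2).1
    generalize ∏ p ∈ Pr X, cc η s (vl p r.1) = x
    generalize ∏ p ∈ Pr X, cc η s (vl p r.2) = x'
    rw [div_mul_div_comm, mul_one_div, ← mul_div_assoc, ← add_div, ← mul_pow]
    refine div_le_div_of_nonneg_right ?_ (by positivity)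
    rw [← sub_le_iff_le_add', le_inv_mul_iff₀ u0]
    nlinarith [sq_nonneg (x * x' - u), sq_nonneg (x * x'), sq_nonneg u]
  have k5 : ∑ r ∈ R, 1 / ((r.1 : ℝ) * r.2) ≤ 4 * (1 + log X) ^ 2 / u ^ 2 := by
    refine ((sum_le_sum_of_subset_of_nonneg (fun r hr => mem_filter.2 ⟨(mem_filter.1 hr).1,
      (mem_filter.1 hr).2.1⟩) fun _ _ _ => by positivity).trans k2).trans ?_
    rw [div_le_div_iff₀ (by exact_mod_cast B0) (by positivity)]
    nlinarith [Nat.le_ceil (u ^ 2 / 2), sq_nonneg (1 + log (X : ℝ))]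
  have k6 : ∑ r ∈ R, (∏ p ∈ Pr X, cc η s (vl p r.1)) ^ 2 / r.1 *
      ((∏ p ∈ Pr X, cc η s (vl p r.2)) ^ 2 / r.2) ≤ (exp (C * 4) * (1 + log X) ^ C) ^ 2 := by
    refine (sum_le_sum_of_subset_of_nonneg (filter_subset _ _) fun _ _ _ => by positivity).trans ?_
    rw [sum_product]
    dsimp only
    rw [← sum_mul_sum, ← sq]
    exact pow_le_pow_left₀ (sum_nonneg fun _ _ => by positivity) k3 2
  have k7 : u * (4 * (1 + log X) ^ 2 / u ^ 2) + u⁻¹ * (exp (C * 4) * (1 + log X) ^ C) ^ 2 ≤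
      (4 + exp (C * 4) ^ 2) * 4 ^ (1 / (2 * n) : ℝ) * (1 + log X) ^ (2 + 2 * C) *
        y ^ (1 / (2 * n) : ℝ) := by
    have a1 : (1 + log (X : ℝ)) ^ 2 ≤ (1 + log X) ^ (2 + 2 * C) := by
      rw [← rpow_two]; exact rpow_le_rpow_of_exponent_le L1 (by linarith)
    have a2 : ((1 + log (X : ℝ)) ^ C) ^ 2 ≤ (1 + log X) ^ (2 + 2 * C) := by
      rw [← rpow_two, ← rpow_mul (by linarith)]; exact rpow_le_rpow_of_exponent_le L1 (by linarith)
    have a3 : u⁻¹ = 4 ^ (1 / (2 * n) : ℝ) * y ^ (1 / (2 * n) : ℝ) := by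
      rw [hu, rpow_neg (by positivity), inv_inv, mul_rpow (by norm_num) hy.le]
    calc _ = u⁻¹ * (4 * (1 + log X) ^ 2 + exp (C * 4) ^ 2 * ((1 + log X) ^ C) ^ 2) := by
          field_simp
      _ ≤ u⁻¹ * (4 * (1 + log X) ^ (2 + 2 * C) + exp (C * 4) ^ 2 * (1 + log X) ^ (2 + 2 * C)) := by
          gcongr
      _ = _ := by rw [a3]; ring
  have k8 := rpow_le_rpow (sum_nonneg fun r _ => prod_nonneg fun p _ =>
    div_nonneg (cc_pos e0 _ _).le (by positivity)) (k4.trans ((add_le_add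
    (mul_le_mul_of_nonneg_left k5 u0.le) (mul_le_mul_of_nonneg_left k6 (by positivity))).trans k7))
    (show 0 ≤ 1 - s by linarith)
  rw [mul_rpow (by positivity) (by positivity), mul_rpow (by positivity) (by positivity),
    ← rpow_mul hy.le, ← rpow_mul (x := 1 + log X) (by linarith)] at k8
  have M0 := rpow_nonneg (sum_nonneg fun v (_ : v ∈ S) => h0 v) (2 * s)
  refine k1.trans ((mul_le_mul_of_nonneg_right (mul_le_mul_of_nonneg_right k8 (by positivity))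
    M0).trans (le_of_eq ?_))
  rw [show (2 + 1 / (2 * n)) * (1 - s) = 1 / (2 * n) * (1 - s) + (2 - 2 * s) by ring, rpow_add hy]
  ring

end Vale.Agent.P028
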