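import Vale.Agent.P028.Full

/-! The two extra divergence theorems. -/

namespace Vale.Agent.P028

open Finset Real MeasureTheory Filter

lemma trunc (γ : ℕ → ℝ) (F : ℕ → ℝ → ℝ) (H : ∀ ψ : ℕ → ℝ, (∀ q, 0 ≤ ψ q) → (∀ q, ψ q ≤ 1 / 2) →
    ¬ Summable (fun q => F q (ψ q)) →
    ∀ᵐ x : ℝ, {q : ℕ | 0 < q ∧ |q * x - γ q - round (q * x - γ q)| < ψ q}.Infinite)
    (ψ : ℕ → ℝ) (h0 : ∀ q, 0 ≤ ψ q) (h : ¬ Summable fun q => F q (ψ q)) :
    ∀ᵐ x : ℝ, {q : ℕ | 0 < q ∧ |q * x - γ q - round (q * x - γ q)| < ψ q}.Infinite := by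
  by_cases c : {q | ¬ ψ q ≤ 1 / 2}.Finite
  · have := H (fun q => min (ψ q) (1 / 2)) (fun q => le_min (h0 q) (by norm_num))
      (fun q => min_le_right _ _) fun a => h (a.congr_cofinite (by
        filter_upwards [eventually_cofinite.2 c] with q hq
        rw [min_eq_left hq]))
    filter_upwards [this] with x hx
    exact hx.mono fun q hq => ⟨hq.1, hq.2.trans_le (min_le_left _ _)⟩
  · refine Eventually.of_forall fun x => ((Set.not_finite.1 c).sdiff (Set.finite_singleton 0)).mono ?_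
    exact fun q hq => ⟨Nat.pos_of_ne_zero hq.2, (abs_sub_round _).trans_lt (not_le.1 hq.1)⟩

lemma tot1 (q : ℕ) : (q.totient : ℝ) / q ≤ 1 :=
  div_le_one_of_le₀ (by exact_mod_cast Nat.totient_le q) (by positivity)

lemma Ioc_sub (Q X : ℕ) : Ioc Q X ⊆ Icc 1 X := fun q hq => by
  have := mem_Ioc.1 hq
  exact mem_Icc.2 ⟨by omega, this.2⟩

lemma blk {m : ℕ → ℝ} (m0 : ∀ q, 0 ≤ m q) {ε : ℝ} (hε : 0 < ε)
    (h : ¬ Summable fun q : ℕ => m q / log q ^ ε) (Q : ℕ) (M : ℝ) : ∃ X : ℕ, 2 ≤ X ∧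
    M ≤ ∑ q ∈ Ioc Q X, m q ∧ (1 + log X) ^ (ε / 2) ≤ ∑ q ∈ Ioc Q X, m q := by
  by_contra c
  push Not at c
  have c' : ∀ X : ℕ, 2 ≤ X → ∑ q ∈ Ioc Q X, m q ≤ max M 1 * (1 + log X) ^ (ε / 2) := by
    intro X hX
    have a : 1 ≤ (1 + log (X : ℝ)) ^ (ε / 2) :=
      one_le_rpow (by linarith [log_natCast_nonneg X]) (by linarith)
    rcases le_total M (∑ q ∈ Ioc Q X, m q) with d | d
    · exact (c X hX d).le.trans (le_mul_of_one_le_left (by linarith) (le_max_right _ _))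
    · exact (d.trans (le_max_left _ 1)).trans
        (le_mul_of_one_le_right (le_max_of_le_right zero_le_one) a)
  have a0 : 0 ≤ max M 1 := le_max_of_le_right zero_le_one
  refine h ((summable_of_sum_le (f := fun q : ℕ => if Q + 1 < q then m q / log q ^ ε else 0)
    (c := max M 1 * 3 ^ (ε / 2) * 2 ^ ε * (1 / (1 - 2 ^ (-(ε / 2))))) (fun q => ?_)
    fun u => ?_).congr_cofinite ?_)
  · dsimp only
    split_ifs
    · exact div_nonneg (m0 q) (rpow_nonneg (log_natCast_nonneg q) _)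
    · rfl
  · rw [← sum_filter, ← sum_fiberwise_of_maps_to (g := fun q => Nat.log 2 (Nat.log 2 q))
      fun e he => mem_image_of_mem (fun q => Nat.log 2 (Nat.log 2 q)) he]
    refine le_trans ?_ (mul_le_mul_of_nonneg_left (geo (r := 2 ^ (-(ε / 2))) (by positivity)
      (rpow_lt_one_of_one_lt_of_neg (by norm_num) (by linarith))
      (image (fun q => Nat.log 2 (Nat.log 2 q)) (u.filter fun q => Q + 1 < q)) id
      (Set.injOn_id _)) (by positivity))
    rw [mul_sum]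
    refine sum_le_sum fun k _ => ?_
    have x0 : (1 : ℝ) ≤ 2 ^ k := one_le_pow₀ (by norm_num)
    have l1 : log 2 ≤ 1 := by linarith [log_two_lt_d9]
    have l2 : 1 / 2 ≤ log 2 := by linarith [log_two_gt_d9]
    have b1 := c' (2 ^ 2 ^ (k + 1)) (Nat.le_self_pow (by positivity) 2)
    have b2 : (1 + log ((2 ^ 2 ^ (k + 1) : ℕ) : ℝ)) ^ (ε / 2) ≤ (3 * 2 ^ k) ^ (ε / 2) := by
      refine rpow_le_rpow (by linarith [log_natCast_nonneg (2 ^ 2 ^ (k + 1))]) ?_ (by linarith)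
      push_cast
      rw [log_pow]
      push_cast
      rw [pow_succ]
      nlinarith
    calc _ ≤ ∑ q ∈ (u.filter fun q => Q + 1 < q).filter fun q => Nat.log 2 (Nat.log 2 q) = k,
          m q / (2 ^ k / 2) ^ ε := sum_le_sum fun q hq => by
          obtain ⟨h1, h2⟩ := mem_filter.1 hq
          have h3 := (mem_filter.1 h1).2
          have h4 : Nat.log 2 q ≠ 0 := (Nat.log_pos (by norm_num) (by omega)).ne'
          have h5 : ((2 ^ k : ℕ) : ℝ) ≤ Nat.log 2 q := by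
            exact_mod_cast h2 ▸ Nat.pow_log_le_self 2 h4
          have h6 : ((2 ^ Nat.log 2 q : ℕ) : ℝ) ≤ q := by
            exact_mod_cast Nat.pow_log_le_self 2 (by omega)
          have h7 := log_le_log (by positivity) h6
          push_cast at h5 h7
          rw [log_pow] at h7
          refine div_le_div_of_nonneg_left (m0 q) (by positivity)
            (rpow_le_rpow (by positivity) (by nlinarith) hε.le)
      _ ≤ max M 1 * (3 * 2 ^ k) ^ (ε / 2) / (2 ^ k / 2) ^ ε := by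
          rw [← sum_div]
          refine div_le_div_of_nonneg_right (le_trans (sum_le_sum_of_subset_of_nonneg
            (fun q hq => ?_) fun q _ _ => m0 q) (b1.trans (mul_le_mul_of_nonneg_left b2 a0)))
            (by positivity)
          obtain ⟨h1, h2⟩ := mem_filter.1 hq
          have h3 := (mem_filter.1 h1).2
          refine mem_Ioc.2 ⟨by omega, ((Nat.lt_pow_succ_log_self (by norm_num) q).trans_le
            (Nat.pow_le_pow_right (by norm_num) ?_)).le⟩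
          exact h2 ▸ Nat.lt_pow_succ_log_self (by norm_num) _
      _ = _ := by
          simp only [id]
          rw [rpow_pow_comm (by norm_num), mul_rpow (by norm_num) (by positivity),
            div_rpow (by positivity) (by norm_num), show -(ε / 2) = ε / 2 - ε by ring,
            rpow_sub (by positivity)]
          field_simp
  · rw [Nat.cofinite_eq_atTop]
    filter_upwards [eventually_gt_atTop (Q + 1)] with q hq
    rw [if_pos hq]

theorem thmB (γ : ℕ → ℝ) {ε : ℝ} (hε : 0 < ε) (ψ : ℕ → ℝ) (h0 : ∀ q, 0 ≤ ψ q)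
    (h : ¬ Summable fun q : ℕ => (q.totient : ℝ) / q * ψ q ^ (1 + ε)) :
    ∀ᵐ x : ℝ, {q : ℕ | 0 < q ∧ |q * x - γ q - round (q * x - γ q)| < ψ q}.Infinite := by
  refine trunc γ (fun q t => (q.totient : ℝ) / q * t ^ (1 + ε)) (fun ψ h0 h1 h => ?_) ψ h0 h
  have a1 : ε / (6 * (1 + ε)) ≤ 1 / 6 := by rw [div_le_iff₀ (by positivity)]; linarith
  obtain ⟨C, C0, H⟩ := HN (s := 1 / 2 + ε / (6 * (1 + ε))) (lt_add_of_pos_right _ (by positivity))
    (by linarith)
  have e : ∀ q : ℕ, (q.totient : ℝ) / q * ψ q ^ (1 + ε) = (q.totient : ℝ) / q * ψ q ^ ε * ψ q :=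
    fun q => by rw [rpow_one_add' (h0 q) (by linarith)]; ring
  simp only [e] at h
  have w0 : ∀ q : ℕ, 0 ≤ (q.totient : ℝ) / q * ψ q ^ ε := fun q =>
    mul_nonneg (by positivity) (rpow_nonneg (h0 q) _)
  refine full h0 h1 w0 (fun q => mul_le_one₀ (tot1 q) (rpow_nonneg (h0 q) _)
    (rpow_le_one (h0 q) (by linarith [h1 q]) hε.le)) (β := 2 * ε / 3) (by positivity) C0.le
    fun Q M => ?_
  have t := (not_summable_iff_tendsto_nat_atTop_of_nonneg fun q => mul_nonneg (w0 q) (h0 q)).1 h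
  obtain ⟨X, a2, a3⟩ := ((t.eventually_ge_atTop (max M 1 + ∑ q ∈ range (Q + 1),
    (q.totient : ℝ) / q * ψ q ^ ε * ψ q)).and (eventually_gt_atTop Q)).exists
  have a4 : max M 1 ≤ ∑ q ∈ Ioc Q X, (q.totient : ℝ) / q * ψ q ^ ε * ψ q := by
    rw [← sum_range_add_sum_Ico _ a3, add_comm, add_le_add_iff_left] at a2
    refine a2.trans (sum_le_sum_of_subset_of_nonneg (fun q hq => ?_)
      fun q _ _ => mul_nonneg (w0 q) (h0 q))
    have := mem_Ico.1 hq
    exact mem_Ioc.2 ⟨this.1, this.2.le⟩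
  refine ⟨Ioc Q X, fun q hq => (mem_Ioc.1 hq).1, (le_max_left _ _).trans a4, fun y hy E hE hy' => ?_⟩
  have key : ∀ q r : ℕ, r ∈ Ioc Q X → ψ q * (r / q.gcd r : ℕ) ≤ y →
      (q.totient : ℝ) / q * ψ q ^ ε * ψ q * (r / q.gcd r : ℕ) ≤ (q.totient : ℝ) / q * y ^ (1 + ε) := by
    intro q r hr d
    have b1 : (1 : ℝ) ≤ (r / q.gcd r : ℕ) := by
      exact_mod_cast (mem_Icc.1 (div_mem (q := q) (Ioc_sub Q X hr))).1
    rw [mul_assoc, mul_assoc, add_comm, rpow_add hy, rpow_one]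
    refine mul_le_mul_of_nonneg_left (mul_le_mul (rpow_le_rpow (h0 q)
      ((le_mul_of_one_le_right (h0 q) b1).trans d) hε.le) d (mul_nonneg (h0 q) (by linarith))
      (by positivity)) (by positivity)
  refine (H X _ E _ (y ^ (1 + ε)) (Ioc_sub Q X) hE (fun q => mul_nonneg (w0 q) (h0 q))
    (by positivity) fun e he => ⟨key _ _ (mem_product.1 (hE he)).2 ((le_max_left _ _).trans
      (hy' e he).2.1), key _ _ (mem_product.1 (hE he)).1 ((le_max_right _ _).trans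
      (hy' e he).2.1)⟩).trans ?_
  rw [← rpow_mul hy.le, show (1 + ε) * (2 - 2 * (1 / 2 + ε / (6 * (1 + ε)))) = 1 + 2 * ε / 3 by
    field_simp; ring, mul_right_comm]
  exact mul_le_mul_of_nonneg_right (mul_le_mul_of_nonneg_left (rpow_le_rpow_of_exponent_le
    ((le_max_right _ _).trans a4) (by linarith)) C0.le) (by positivity)

theorem thmA {γ : ℝ} (h1 : Irrational γ) (h2 : ¬ Liouville γ) {ε : ℝ} (hε : 0 < ε) (ψ : ℕ → ℝ)
    (h0 : ∀ q, 0 ≤ ψ q) (h : ¬ Summable fun q : ℕ => (q.totient : ℝ) / q * ψ q / log q ^ ε) :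
    ∀ᵐ x : ℝ, {q : ℕ | 0 < q ∧ |q * x - γ - round (q * x - γ)| < ψ q}.Infinite := by
  refine trunc (fun _ => γ) (fun q t => (q.totient : ℝ) / q * t / log q ^ ε)
    (fun ψ h0 h1' h => ?_) ψ h0 h
  obtain ⟨n, n0, hd⟩ := dio h1 h2
  have n1 : (1 : ℝ) ≤ n := by exact_mod_cast n0
  have d0 : 0 < (1 / (2 * n) : ℝ) := by positivity
  have d1 : (1 / (2 * n) : ℝ) ≤ 1 / 2 := by rw [div_le_iff₀ (by positivity)]; linarith
  obtain ⟨C1, c, C10, c0, H1⟩ := GN n0 hd (s := 1 / 2 + 1 / (2 * n) / 8) (by linarith) (by linarith)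
  generalize (1 / (2 * n) : ℝ) = δ at *
  obtain ⟨b, b0, b1, hb⟩ : ∃ b, 0 < b ∧ b ≤ 1 ∧ (2 + δ) * (1 - (1 / 2 + δ / 8)) = 1 + b :=
    ⟨δ / 4 - δ ^ 2 / 8, by nlinarith, by nlinarith, by ring⟩
  rw [hb] at H1
  obtain ⟨θ, t0, t1, t2⟩ : ∃ θ, 0 < θ ∧ θ ≤ 1 / 2 ∧ c * θ ≤ ε / 2 * (1 / 3) :=
    ⟨min (1 / 2) (ε / 2 * (1 / 3) / c), lt_min (by norm_num) (by positivity), min_le_left _ _,
      (le_div_iff₀' c0).1 (min_le_right _ _)⟩
  obtain ⟨C2, C20, H2⟩ := HN (s := 1 / 2 + θ * b / 4) (lt_add_of_pos_right _ (by positivity))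
    (by nlinarith)
  have m0 : ∀ q : ℕ, 0 ≤ (q.totient : ℝ) / q * ψ q := fun q => mul_nonneg (by positivity) (h0 q)
  refine full h0 h1' (fun q => by positivity) tot1 (β := θ * b * (1 + θ) / 2) (by positivity)
    (K := C1 ^ θ * C2 ^ (1 - θ)) (by positivity) fun Q M => ?_
  obtain ⟨X, a1, a2, a3⟩ := blk m0 hε h Q (max M 1)
  refine ⟨Ioc Q X, fun q hq => (mem_Ioc.1 hq).1, (le_max_left _ _).trans a2, fun y hy E hE hy' => ?_⟩
  have k1 := H1 X _ ψ _ a1 (Ioc_sub Q X) m0 (fun q => mul_le_of_le_one_left (h0 q) (tot1 q))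
    y hy E hE hy'
  have k2 := H2 X _ E _ y (Ioc_sub Q X) hE m0 hy fun e he => by
    rw [mul_assoc, mul_assoc]
    exact ⟨mul_le_mul_of_nonneg_left ((le_max_left _ _).trans (hy' e he).2.1) (by positivity),
      mul_le_mul_of_nonneg_left ((le_max_right _ _).trans (hy' e he).2.1) (by positivity)⟩
  have x0 : 0 ≤ mu E (fun q : ℕ => (q.totient : ℝ) / q * ψ q) fun q : ℕ => (q.totient : ℝ) / q * ψ q :=
    sum_nonneg fun e _ => mul_nonneg (m0 _) (m0 _)
  have M1 := (le_max_right _ _).trans a2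
  have L1 : 1 ≤ 1 + log (X : ℝ) := by linarith [log_natCast_nonneg X]
  generalize mu E _ _ = x at *
  generalize ∑ q ∈ Ioc Q X, (q.totient : ℝ) / q * ψ q = N at *
  generalize 1 + log (X : ℝ) = L at *
  have N0 : 0 < N := by linarith
  have L0 : 0 < L := by linarith
  replace k1 : x ≤ C1 * L ^ c * N ^ (4 / 3 : ℝ) * y ^ (1 + b) := k1.trans (by
    gcongr; linarith)
  replace k2 : x ≤ C2 * y ^ (2 - 2 * (1 / 2 + θ * b / 4)) * N ^ (4 / 3 : ℝ) := k2.trans (by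
    gcongr; nlinarith)
  have k3 : L ^ (c * θ) ≤ N ^ (1 / 3 : ℝ) := (rpow_le_rpow_of_exponent_le L1 t2).trans (by
    rw [rpow_mul L0.le]; exact rpow_le_rpow (by positivity) a3 (by norm_num))
  calc x = x ^ θ * x ^ (1 - θ) := by rw [← rpow_add' x0 (by linarith)]; simp
    _ ≤ (C1 * L ^ c * N ^ (4 / 3 : ℝ) * y ^ (1 + b)) ^ θ *
        (C2 * y ^ (2 - 2 * (1 / 2 + θ * b / 4)) * N ^ (4 / 3 : ℝ)) ^ (1 - θ) := by
        gcongr; linarith
    _ = C1 ^ θ * C2 ^ (1 - θ) * (L ^ (c * θ) * ((N ^ (4 / 3 : ℝ)) ^ θ * (N ^ (4 / 3 : ℝ)) ^ (1 - θ))) *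
        (y ^ ((1 + b) * θ) * y ^ ((2 - 2 * (1 / 2 + θ * b / 4)) * (1 - θ))) := by
        rw [rpow_mul L0.le, rpow_mul hy.le, rpow_mul hy.le]
        repeat rw [mul_rpow (by positivity) (by positivity)]
        ring
    _ ≤ _ := by
        rw [← rpow_add (by positivity), ← rpow_add hy, add_sub_cancel, rpow_one,
          show (1 + b) * θ + (2 - 2 * (1 / 2 + θ * b / 4)) * (1 - θ) = 1 + θ * b * (1 + θ) / 2 by
            ring, show (5 / 3 : ℝ) = 1 / 3 + 4 / 3 by norm_num, rpow_add N0]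
        gcongr

end Vale.Agent.P028
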