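import Vale.Agent.P028.H2
import Vale.Agent.P028.G
import Vale.Agent.P031.Mertens

/-! The two inequalities for integers, Euler products and Bohr sets. -/

namespace Vale.Agent.P028

open Finset Real

def vl (p v : ℕ) : ℕ := v.factorization p

def Pr (X : ℕ) : Finset ℕ := (Ioc 0 X).filter Nat.Prime

lemma Pr_prime {X p : ℕ} (h : p ∈ Pr X) : p.Prime := (mem_filter.1 h).2

lemma supp {X v : ℕ} (hv : v ∈ Icc 1 X) : v.primeFactors ⊆ Pr X := fun p hp => by
  have := mem_Icc.1 hv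
  have h1 := Nat.prime_of_mem_primeFactors hp
  exact mem_filter.2 ⟨mem_Ioc.2 ⟨h1.pos, (Nat.le_of_mem_primeFactors hp).trans this.2⟩, h1⟩

lemma prodT {X v : ℕ} (hv : v ∈ Icc 1 X) : ∏ p ∈ Pr X, (p : ℝ) ^ vl p v = v := by
  have h := Nat.prod_factorization_pow_eq_self (n := v) (by have := mem_Icc.1 hv; omega)
  rw [Finsupp.prod_of_support_subset _ (supp hv) _ (by simp)] at h
  exact_mod_cast h

lemma injT {X : ℕ} {S : Finset ℕ} (h : S ⊆ Icc 1 X) : Inj vl (Pr X) S := fun v hv v' hv' e => by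
  have := prodT (h hv)
  rw [prod_congr rfl fun p hp => by rw [e p hp], prodT (h hv')] at this
  exact_mod_cast this.symm

lemma vl_div {q r : ℕ} (hq : q ≠ 0) (hr : r ≠ 0) (p : ℕ) :
    vl p (r / q.gcd r) = vl p r - vl p q := by
  simp only [vl, Nat.factorization_div (Nat.gcd_dvd_right q r), Nat.factorization_gcd hq hr,
    Finsupp.tsub_apply, Finsupp.inf_apply]
  omega

lemma div_mem {X q r : ℕ} (hr : r ∈ Icc 1 X) : r / q.gcd r ∈ Icc 1 X := by
  have := mem_Icc.1 hr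
  exact mem_Icc.2 ⟨Nat.div_pos (Nat.gcd_le_right _ this.1) (Nat.gcd_pos_of_pos_right _ this.1),
    (Nat.div_le_self _ _).trans this.2⟩

lemma aaT {X q r : ℕ} (hq : q ∈ Icc 1 X) (hr : r ∈ Icc 1 X) :
    aa vl (Pr X) r q = (r / q.gcd r : ℕ) := by
  have a := mem_Icc.1 hq
  have b := mem_Icc.1 hr
  rw [← prodT (div_mem hr)]
  exact prod_congr rfl fun p _ => by rw [vl_div (by omega) (by omega)]

lemma rhoT {X v : ℕ} (hv : v ∈ Icc 1 X) : rho vl (Pr X) v = (v.totient : ℝ) / v := by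
  have a := mem_Icc.1 hv
  have h := congrArg (Rat.cast : ℚ → ℝ) (Nat.totient_eq_mul_prod_factors v)
  push_cast at h
  rw [h, mul_div_cancel_left₀ _ (by exact_mod_cast (by omega : v ≠ 0)), rho,
    ← prod_subset (supp hv)]
  · refine prod_congr rfl fun p hp => ?_
    rw [if_neg (show ¬ vl p v = 0 from (Finsupp.mem_support_iff (f := v.factorization)).1 hp),
      one_div]
  · exact fun p _ hp => if_pos (Finsupp.notMem_support_iff.1 hp)

lemma unscale {S : Finset ℕ} {E : Finset (ℕ × ℕ)} {m : ℕ → ℝ} {y C s : ℝ} (hy : 0 < y)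
    (h0 : ∀ v, 0 ≤ m v) (h : mu E (fun v => y⁻¹ * m v) (fun v => y⁻¹ * m v) ≤
      C * ((∑ v ∈ S, y⁻¹ * m v) * ∑ v ∈ S, y⁻¹ * m v) ^ s) :
    mu E m m ≤ C * y ^ (2 - 2 * s) * (∑ v ∈ S, m v) ^ (2 * s) := by
  have e : mu E m m = y ^ (2 : ℝ) * mu E (fun v => y⁻¹ * m v) (fun v => y⁻¹ * m v) := by
    rw [mu, mu, mul_sum]
    exact sum_congr rfl fun _ _ => by rw [rpow_two]; field_simp
  have M0 : 0 ≤ ∑ v ∈ S, m v := sum_nonneg fun v _ => h0 v
  rw [← mul_sum, ← sq, ← rpow_two, ← rpow_mul (by positivity), mul_rpow (by positivity) M0,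
    inv_rpow hy.le] at h
  rw [e, rpow_sub hy]
  refine (mul_le_mul_of_nonneg_left h (by positivity)).trans (le_of_eq (by ring))

theorem HN {s : ℝ} (hs : 1 / 2 < s) (hs' : s ≤ 2 / 3) : ∃ C : ℝ, 0 < C ∧
    ∀ (X : ℕ) (S : Finset ℕ) (E : Finset (ℕ × ℕ)) (m : ℕ → ℝ) (y : ℝ), S ⊆ Icc 1 X →
    E ⊆ S ×ˢ S → (∀ v, 0 ≤ m v) → 0 < y →
    (∀ e ∈ E, m e.1 * (e.2 / e.1.gcd e.2 : ℕ) ≤ (e.1.totient : ℝ) / e.1 * y ∧
      m e.2 * (e.1 / e.2.gcd e.1 : ℕ) ≤ (e.2.totient : ℝ) / e.2 * y) →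
    mu E m m ≤ C * y ^ (2 - 2 * s) * (∑ v ∈ S, m v) ^ (2 * s) := by
  obtain ⟨C, C0, H⟩ := HH hs hs'
  refine ⟨C, C0, fun X S E m y hS hE h0 hy hm => unscale hy h0 (H vl (Pr X) S S E _ _
    (fun p => Pr_prime) ⟨hE, fun v => mul_nonneg (by positivity) (h0 v),
      fun v => mul_nonneg (by positivity) (h0 v)⟩ (injT hS) (injT hS) fun e he => ?_)⟩
  have a := hS (mem_product.1 (hE he)).1
  have b := hS (mem_product.1 (hE he)).2
  rw [aaT a b, aaT b a, rhoT a, rhoT b, mul_assoc, mul_assoc, inv_mul_le_iff₀ hy,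
    inv_mul_le_iff₀ hy, mul_comm y, mul_comm y]
  exact hm e he

lemma euler {val : ℕ → ℕ → ℕ} {f : ℕ → ℕ → ℝ} {F : ℕ → ℝ} (f0 : ∀ p k, 0 ≤ f p k) (T : Finset ℕ) :
    ∀ A : Finset ℕ, Inj val T A → (∀ p ∈ T, ∀ K : Finset ℕ, ∑ k ∈ K, f p k ≤ F p) →
    ∑ a ∈ A, ∏ p ∈ T, f p (val p a) ≤ ∏ p ∈ T, F p := by
  induction T using Finset.strongInduction with
  | H T ih =>
  intro A hA hF
  rcases T.eq_empty_or_nonempty with rfl | ⟨p, hp⟩
  · simp only [prod_empty, sum_const, nsmul_eq_mul, mul_one]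
    exact_mod_cast card_le_one.2 fun a ha b hb => hA a ha b hb (by simp)
  have F0 : 0 ≤ ∏ q ∈ T.erase p, F q :=
    prod_nonneg fun q hq => by simpa using hF q (mem_of_mem_erase hq) ∅
  rw [← sum_fiberwise_of_maps_to (g := val p) (fun a ha => mem_image_of_mem _ ha),
    ← mul_prod_erase T F hp]
  refine le_trans (sum_le_sum fun k _ => ?_) ((sum_mul _ (f p) _).ge.trans
    (mul_le_mul_of_nonneg_right (hF p hp _) F0))
  refine le_trans (le_of_eq ?_) (mul_le_mul_of_nonneg_left (ih _ (erase_ssubset hp) _ (hA.fib p k)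
    fun q hq => hF q (mem_of_mem_erase hq)) (f0 p k))
  rw [mul_sum]
  exact sum_congr rfl fun a ha => by rw [← mul_prod_erase T _ hp, (mem_filter.1 ha).2]

lemma loc {η s : ℝ} (e0 : 0 < η) (hs : s ≤ 2 / 3) (hs0 : 0 < s) : ∃ C : ℝ, 0 < C ∧ ∀ p : ℕ, 2 ≤ p →
    ∀ K : Finset ℕ, ∑ k ∈ K, cc η s k ^ 2 / (p : ℝ) ^ k ≤ exp (C * (1 / p)) := by
  set a : ℝ := ((η / 18) ^ (-(1 / (1 - s)))) ^ 2
  have a0 : 0 < a := by positivity
  refine ⟨38 * a, by positivity, fun p hp K => le_trans ?_ (add_one_le_exp _)⟩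
  have p2 : (2 : ℝ) ≤ p := by exact_mod_cast hp
  have b : ((9 / 10 : ℝ) ^ (-(1 / (1 - s)))) ^ 2 ≤ 19 / 10 := by
    have : (9 / 10 : ℝ) ^ (-(1 / (1 - s))) ≤ (9 / 10 : ℝ) ^ (-((3 : ℕ) : ℝ)) :=
      rpow_le_rpow_of_exponent_ge (by norm_num) (by norm_num) (by
        rw [neg_le_neg_iff, div_le_iff₀ (by linarith)]; push_cast; linarith)
    rw [rpow_neg (by norm_num) ((3 : ℕ) : ℝ), rpow_natCast] at this
    exact (pow_le_pow_left₀ (by positivity) this 2).trans (by norm_num)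
  have g := geo (r := 19 / 20) (by norm_num) (by norm_num) (K.erase 0) (fun k => k - 1)
    fun x hx y hy e => by
      have := ne_of_mem_erase hx
      have := ne_of_mem_erase hy
      simp only at e; omega
  have h1 : ∑ k ∈ K.erase 0, cc η s k ^ 2 / (p : ℝ) ^ k ≤
      ∑ k ∈ K.erase 0, a * (19 / 10 * (1 / p)) * (19 / 20) ^ (k - 1) := sum_le_sum fun k hk => by
    obtain ⟨j, rfl⟩ := Nat.exists_eq_succ_of_ne_zero (ne_of_mem_erase hk)
    rw [cc, if_neg (by omega), mul_rpow (by positivity) (by positivity), mul_pow,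
      ← rpow_pow_comm (by norm_num), ← pow_mul, mul_comm _ 2, pow_mul, mul_div_assoc, ← div_pow,
      mul_assoc, Nat.succ_sub_one, pow_succ' _ j]
    refine mul_le_mul_of_nonneg_left (mul_le_mul ?_ (pow_le_pow_left₀ (by positivity) ?_ _)
      (by positivity) (by positivity)) a0.le
    · rw [mul_one_div]; exact div_le_div_of_nonneg_right b (by positivity)
    · rw [div_le_iff₀ (by positivity)]; linarith
  rw [← mul_sum] at h1
  have h2 := mul_le_mul_of_nonneg_left g (show 0 ≤ a * (19 / 10 * (1 / p)) by positivity)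
  have h3 : ∑ k ∈ K, cc η s k ^ 2 / (p : ℝ) ^ k ≤
      ∑ k ∈ insert 0 (K.erase 0), cc η s k ^ 2 / (p : ℝ) ^ k :=
    sum_le_sum_of_subset_of_nonneg (subset_insert_iff.2 subset_rfl) fun _ _ _ => by positivity
  rw [sum_insert (notMem_erase _ _)] at h3
  simp only [cc, if_true, pow_zero, one_pow, div_one] at h1 h3 ⊢
  rw [show (1 : ℝ) / (1 - 19 / 20) = 20 by norm_num] at h2
  linarith

def Bo (γ y : ℝ) (a b : ℕ) : Prop := ∃ z : ℤ, |((a : ℝ) - b) * γ - z| < y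

lemma harm (X : ℕ) : ∑ k ∈ Icc 1 X, 1 / (k : ℝ) ≤ 1 + log X := by
  have := harmonic_le_one_add_log X
  simpa [harmonic_eq_sum_Icc] using this

open scoped Classical in
lemma sep {γ y : ℝ} {B : ℕ} (hB : 0 < B) (h : ∀ a b, a < b → Bo γ (2 * y) a b → a + B ≤ b) (X : ℕ) :
    ∑ r ∈ (Icc 1 X ×ˢ Icc 1 X).filter fun r => r.1 ≠ r.2 ∧ Bo γ y r.1 r.2,
      1 / ((r.1 : ℝ) * r.2) ≤ 2 * (1 + log X) ^ 2 / B := by
  have B0 : (0 : ℝ) < B := by exact_mod_cast hB
  have H0 : 0 ≤ ∑ k ∈ Icc 1 X, 1 / (k : ℝ) := sum_nonneg fun _ _ => by positivity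
  have k1 : ∀ a ∈ Icc 1 X, ∑ b ∈ (Icc 1 X).filter fun b => a < b ∧ Bo γ y a b, 1 / (b : ℝ) ≤
      (1 + log X) / B := by
    intro a ha
    have mono : ∀ b b', Bo γ y a b → Bo γ y a b' → b < b' → b / B < b' / B := by
      rintro b b' ⟨z, hz⟩ ⟨z', hz'⟩ hb
      have := Nat.div_le_div_right (c := B) (h b b' hb ⟨z' - z, by
        rw [abs_lt] at *; push_cast; constructor <;> linarith⟩)
      rw [Nat.add_div_right _ hB] at this
      exact this
    have ge : ∀ b, a < b → Bo γ y a b → 1 ≤ b / B := by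
      rintro b hb ⟨z, hz⟩
      have := h a b hb ⟨z, by linarith [abs_nonneg (((a : ℝ) - b) * γ - z)]⟩
      exact Nat.div_pos (by omega) hB
    have inj : Set.InjOn (fun b => b / B) ((Icc 1 X).filter fun b => a < b ∧ Bo γ y a b) := by
      intro b hb b' hb' e
      have h1 := (mem_filter.1 hb).2.2
      have h2 := (mem_filter.1 hb').2.2
      rcases lt_trichotomy b b' with d | d | d
      · exact absurd e (mono b b' h1 h2 d).ne
      · exact d
      · exact absurd e (mono b' b h2 h1 d).ne'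
    rw [le_div_iff₀ B0, sum_mul]
    refine le_trans (sum_le_sum fun b hb => ?_) ((sum_image (f := fun k : ℕ => 1 / (k : ℝ))
      inj).ge.trans ((sum_le_sum_of_subset_of_nonneg ?_ fun _ _ _ => by positivity).trans (harm X)))
    · obtain ⟨h1, h2, h3⟩ := mem_filter.1 hb
      have h4 : (0 : ℝ) < (b / B : ℕ) := by exact_mod_cast ge b h2 h3
      have h5 : ((b / B : ℕ) : ℝ) * B ≤ b := by exact_mod_cast Nat.div_mul_le_self b B
      rw [one_div_mul_eq_div, div_le_div_iff₀ (by exact_mod_cast (by omega : 0 < b)) h4]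
      linarith
    · intro k hk
      obtain ⟨b, hb, rfl⟩ := mem_image.1 hk
      obtain ⟨h1, h2, h3⟩ := mem_filter.1 hb
      exact mem_Icc.2 ⟨ge b h2 h3, (Nat.div_le_self _ _).trans (mem_Icc.1 h1).2⟩
  have k2 : ∑ a ∈ Icc 1 X, ∑ b ∈ Icc 1 X, (if a < b ∧ Bo γ y a b then 1 / ((a : ℝ) * b) else 0) ≤
      (1 + log X) ^ 2 / B := by
    refine le_trans (sum_le_sum (g := fun a : ℕ => 1 / (a : ℝ) * ((1 + log X) / B)) fun a ha => ?_) ?_
    · refine le_trans (le_of_eq ?_) (mul_le_mul_of_nonneg_left (k1 a ha) (by positivity))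
      rw [← sum_filter, mul_sum]
      exact sum_congr rfl fun b _ => by rw [one_div_mul_one_div]
    · rw [← sum_mul, sq, mul_div_assoc]
      exact mul_le_mul_of_nonneg_right (harm X) (div_nonneg (H0.trans (harm X)) B0.le)
  have k3 := k2
  rw [sum_comm] at k3
  rw [sum_filter, sum_product, mul_div_assoc, two_mul]
  refine le_trans ?_ (add_le_add k2 k3)
  rw [← sum_add_distrib]
  refine sum_le_sum fun a _ => ?_
  rw [← sum_add_distrib]
  refine sum_le_sum fun b _ => ?_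
  have sy : ∀ a b, Bo γ y a b → Bo γ y b a := fun a b ⟨z, hz⟩ =>
    ⟨-z, by rw [abs_lt] at *; push_cast; constructor <;> linarith⟩
  by_cases d : a ≠ b ∧ Bo γ y a b
  · rw [if_pos d]
    rcases lt_or_gt_of_ne d.1 with c | c
    · rw [if_pos ⟨c, d.2⟩, if_neg fun e => c.not_gt e.1, add_zero]
    · rw [if_neg fun e => c.not_gt e.1, if_pos ⟨c, sy _ _ d.2⟩, zero_add, mul_comm]
  · rw [if_neg d]
    positivity

end Vale.Agent.P028
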