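import Vale.Agent.P028.GN

/-! Overlap estimates and the variance bound on the circle. -/

namespace Vale.Agent.P028

open Finset Real MeasureTheory

lemma cheb {X : Type*} [MeasurableSpace X] (μ : Measure X) [IsProbabilityMeasure μ] (S : Finset ℕ)
    (A : ℕ → Set X) (hA : ∀ q, MeasurableSet (A q)) (w : ℕ → ℝ) {C : Set X} (hC : MeasurableSet C)
    (h : ∀ x ∈ C, ∀ q ∈ S, x ∉ A q) :
    (∑ q ∈ S, w q * μ.real (A q)) ^ 2 * μ.real C + (∑ q ∈ S, w q * μ.real (A q)) ^ 2 ≤
      ∑ e ∈ S ×ˢ S, w e.1 * w e.2 * μ.real (A e.1 ∩ A e.2) := by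
  set c := ∑ q ∈ S, w q * μ.real (A q) with hc
  have i0 : ∀ {s : Set X}, MeasurableSet s → ∀ a : ℝ,
      Integrable (fun x => a * s.indicator (1 : X → ℝ) x) μ := fun hs a =>
    ((integrable_const (1 : ℝ)).indicator hs).const_mul a
  have i1 := integrable_finsetSum S fun q _ => i0 (hA q) (w q)
  have i2 := integrable_finsetSum (S ×ˢ S) fun e _ => i0 ((hA e.1).inter (hA e.2)) (w e.1 * w e.2)
  have k := integral_mono ((i0 hC (c ^ 2)).add (i1.const_mul (2 * c))) (i2.add
    (integrable_const (c ^ 2))) fun x => by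
      have e : ∑ e ∈ S ×ˢ S, w e.1 * w e.2 * (A e.1 ∩ A e.2).indicator (1 : X → ℝ) x =
          (∑ q ∈ S, w q * (A q).indicator (1 : X → ℝ) x) ^ 2 := by
        rw [sq, sum_mul_sum, sum_product]
        refine sum_congr rfl fun q _ => sum_congr rfl fun r _ => ?_
        rw [Set.inter_indicator_one, Pi.mul_apply]; ring
      simp only [Pi.add_apply, e]
      by_cases d : x ∈ C
      · rw [sum_eq_zero fun q hq => by rw [Set.indicator_of_notMem (h x d q hq), mul_zero]]
        simp [d]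
      · rw [Set.indicator_of_notMem d]
        nlinarith [sq_nonneg (∑ q ∈ S, w q * (A q).indicator (1 : X → ℝ) x - c)]
  rw [integral_add' (i0 hC _) (i1.const_mul _), integral_add' i2 (integrable_const _),
    integral_const_mul, integral_const_mul, integral_finsetSum _ fun q _ => i0 (hA q) _,
    integral_finsetSum _ fun e _ => i0 ((hA e.1).inter (hA e.2)) _] at k
  simp only [integral_const_mul, integral_indicator_one hC, integral_indicator_one (hA _),
    integral_indicator_one ((hA _).inter (hA _)), integral_const, probReal_univ, one_smul,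
    ← hc] at k
  linarith

def AA (q : ℕ) (γ ψ : ℝ) : Set UnitAddCircle :=
  (fun x => (q : ℤ) • x) ⁻¹' Metric.ball (γ : UnitAddCircle) ψ

lemma mem_AA {q : ℕ} {γ ψ x : ℝ} :
    (x : UnitAddCircle) ∈ AA q γ ψ ↔ |q * x - γ - round (q * x - γ)| < ψ := by
  rw [AA, Set.mem_preimage, mem_ball_iff_norm, ← AddCircle.coe_zsmul, ← AddCircle.coe_sub,
    UnitAddCircle.norm_eq, zsmul_eq_mul, Int.cast_natCast]

lemma mp {q : ℕ} (hq : q ≠ 0) : MeasurePreserving (fun x : UnitAddCircle => (q : ℤ) • x) :=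
  Measure.measurePreserving_zsmul volume (by exact_mod_cast hq)

lemma meas_AA (q : ℕ) (γ ψ : ℝ) : MeasurableSet (AA q γ ψ) :=
  (Metric.isOpen_ball.preimage (continuous_zsmul _)).measurableSet

lemma vol_AA {q : ℕ} (hq : q ≠ 0) (γ : ℝ) {ψ : ℝ} (h0 : 0 ≤ ψ) (h1 : ψ ≤ 1 / 2) :
    volume.real (AA q γ ψ) = 2 * ψ := by
  rw [AA, (mp hq).measureReal_preimage measurableSet_ball.nullMeasurableSet, measureReal_def,
    ← measure_congr AddCircle.closedBall_ae_eq_ball, AddCircle.volume_closedBall,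
    min_eq_right (by linarith), ENNReal.toReal_ofReal (by linarith)]

open scoped Classical in
lemma cnt {q r : ℕ} (h : q.Coprime r) (γ : ℝ) {ψ : ℝ} (h0 : 0 ≤ ψ) (x : ℝ) :
    (((range r).filter fun j : ℕ => ((x + j / r : ℝ) : UnitAddCircle) ∈ AA q γ ψ).card : ℝ) ≤
      2 * ψ * r + 1 := by
  rcases r.eq_zero_or_pos with rfl | hr
  · simp
  have r0 : (0 : ℝ) < r := by exact_mod_cast hr
  have := card_le_card_of_injOn (s := (range r).filter fun j : ℕ =>
    ((x + j / r : ℝ) : UnitAddCircle) ∈ AA q γ ψ)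
    (t := Icc ⌈-(r * (q * x - γ)) - r * ψ⌉ ⌊-(r * (q * x - γ)) + r * ψ⌋)
    (fun j => (q : ℤ) * j - r * round (q * (x + j / r) - γ)) (fun j hj => by
      have := abs_lt.1 (mem_AA.1 (mem_filter.1 hj).2)
      have e : (r : ℝ) * (q * (x + j / r)) = r * (q * x) + q * j := by field_simp
      have a1 := mul_lt_mul_of_pos_left this.1 r0
      have a2 := mul_lt_mul_of_pos_left this.2 r0
      refine mem_coe.2 (mem_Icc.2 ⟨Int.ceil_le.2 ?_, Int.le_floor.2 ?_⟩) <;> push_cast <;> linarith)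
    fun j hj j' hj' e => by
      have a := mem_range.1 (mem_filter.1 hj).1
      have b := mem_range.1 (mem_filter.1 hj').1
      have d : (r : ℤ) ∣ q * (j - j') :=
        ⟨round (q * (x + j / r) - γ) - round (q * (x + j' / r) - γ), by linear_combination e⟩
      have := Int.eq_zero_of_abs_lt_dvd ((Nat.isCoprime_iff_coprime.2 h).symm.dvd_of_dvd_mul_left d)
        (by rw [abs_lt]; omega)
      omega
  have a1 := Int.le_ceil (-(r * (q * x - γ)) - r * ψ)
  have a2 := Int.floor_le (-(r * (q * x - γ)) + r * ψ)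
  have a3 := mul_nonneg r0.le h0
  refine (Nat.cast_le.2 this).trans ?_
  rw [Int.card_Icc, ← Int.cast_natCast, Int.toNat_eq_max]
  push_cast
  exact max_le (by linarith) (by linarith)

lemma ov1 {q r : ℕ} (h : q.Coprime r) (hr : r ≠ 0) (γ γ' : ℝ) {ψ ψ' : ℝ} (h0 : 0 ≤ ψ) (h0' : 0 ≤ ψ')
    (h1 : ψ' ≤ 1 / 2) : volume.real (AA q γ ψ ∩ AA r γ' ψ') ≤ 4 * ψ * ψ' + 2 * ψ' / r := by
  classical
  have r0 : (0 : ℝ) < r := by positivity
  have inv : ∀ (j : ℕ) (x : UnitAddCircle), x + ((j / r : ℝ) : UnitAddCircle) ∈ AA r γ' ψ' ↔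
      x ∈ AA r γ' ψ' := fun j x => by
    have : (r : ℤ) • ((j / r : ℝ) : UnitAddCircle) = 0 := by
      rw [← AddCircle.coe_zsmul, AddCircle.coe_eq_zero_iff]
      exact ⟨j, by simp; field_simp⟩
    simp only [AA, Set.mem_preimage, smul_add, this, add_zero]
  have m1 := (meas_AA q γ ψ).inter (meas_AA r γ' ψ')
  have m2 := fun j : ℕ => (measurable_add_const ((j / r : ℝ) : UnitAddCircle)) m1
  have i0 : ∀ {s : Set UnitAddCircle}, MeasurableSet s →
      Integrable (s.indicator (1 : UnitAddCircle → ℝ)) := fun hs =>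
    (integrable_const (1 : ℝ)).indicator hs
  have k := integral_mono (integrable_finsetSum (range r) fun j _ => i0 (m2 j))
    ((i0 (meas_AA r γ' ψ')).const_mul (2 * ψ * r + 1)) fun x => by
      induction x using QuotientAddGroup.induction_on with
      | H x =>
      by_cases d : (x : UnitAddCircle) ∈ AA r γ' ψ'
      · refine le_trans (le_of_eq ?_) ((cnt h γ h0 x).trans (by simp [d]))
        rw [card_filter]
        push_cast
        refine sum_congr rfl fun j _ => ?_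
        simp only [Set.indicator_apply, Set.mem_preimage, Set.mem_inter_iff, inv, d, and_true,
          Pi.one_apply, AddCircle.coe_add]
        congr
      · simp [inv, d]
  rw [integral_finsetSum _ fun j _ => i0 (m2 j), integral_const_mul,
    integral_indicator_one (meas_AA _ _ _), vol_AA hr _ h0' h1] at k
  simp only [integral_indicator_one (m2 _), measureReal_def, measure_preimage_add_right, sum_const,
    card_range, nsmul_eq_mul] at k
  rw [measureReal_def, ← sub_le_iff_le_add', le_div_iff₀ r0]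
  linarith

lemma ov2 {q r : ℕ} (hq : q ≠ 0) (hr : r ≠ 0) (γ γ' : ℝ) {ψ ψ' : ℝ} (h0 : 0 ≤ ψ) (h0' : 0 ≤ ψ')
    (h1 : ψ' ≤ 1 / 2) :
    volume.real (AA q γ ψ ∩ AA r γ' ψ') ≤ 4 * ψ * ψ' + 2 * ψ' / (r / q.gcd r : ℕ) := by
  have g0 := Nat.gcd_pos_of_pos_left r (Nat.pos_of_ne_zero hq)
  have e : ∀ (a : ℕ) (γ ψ : ℝ), q.gcd r ∣ a → AA a γ ψ =
      (fun x => ((q.gcd r : ℕ) : ℤ) • x) ⁻¹' AA (a / q.gcd r) γ ψ := fun a γ ψ ha => by
    ext x
    simp only [AA, Set.mem_preimage, smul_smul, ← Nat.cast_mul, Nat.div_mul_cancel ha]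
  rw [e q _ _ (Nat.gcd_dvd_left _ _), e r _ _ (Nat.gcd_dvd_right _ _), ← Set.preimage_inter,
    (mp g0.ne').measureReal_preimage ((meas_AA _ _ _).inter (meas_AA _ _ _)).nullMeasurableSet]
  exact ov1 (Nat.coprime_div_gcd_div_gcd g0)
    (Nat.div_pos (Nat.gcd_le_right _ (Nat.pos_of_ne_zero hr)) g0).ne' _ _ h0 h0' h1

open scoped Classical in
lemma ov3 (γ : ℕ → ℝ) {ψ : ℕ → ℝ} (h0 : ∀ q, 0 ≤ ψ q) (h1 : ∀ q, ψ q ≤ 1 / 2) {q r : ℕ} (hq : q ≠ 0)
    (hr : r ≠ 0) : volume.real (AA q (γ q) (ψ q) ∩ AA r (γ r) (ψ r)) ≤ 4 * ψ q * ψ r +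
      if Ov γ (DD ψ (q, r)) (q, r) then 2 * (ψ q * ψ r) / DD ψ (q, r) else 0 := by
  have a := mul_nonneg (h0 q) (h0 r)
  split_ifs with d
  · simp only [DD]
    rcases max_choice (ψ q * (r / q.gcd r : ℕ)) (ψ r * (q / r.gcd q : ℕ)) with c | c <;> rw [c]
    · rcases (h0 q).eq_or_lt with z | z
      · simp [← z, AA]
      · rw [mul_left_comm, mul_div_mul_left _ _ z.ne']
        exact ov2 hq hr _ _ (h0 q) (h0 r) (h1 r)
    · rcases (h0 r).eq_or_lt with z | z
      · simp [← z, AA]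
      · rw [mul_comm (ψ q), mul_left_comm 2, mul_div_mul_left _ _ z.ne', Set.inter_comm,
          mul_right_comm]
        exact ov2 hr hq _ _ (h0 r) (h0 q) (h1 q)
  · rw [Set.eq_empty_of_forall_notMem (s := _ ∩ _) fun x hx => d ?_, measureReal_empty]
    · linarith
    induction x using QuotientAddGroup.induction_on with
    | H x =>
    have a1 := abs_lt.1 (mem_AA.1 hx.1)
    have a2 := abs_lt.1 (mem_AA.1 hx.2)
    have g0 := Nat.gcd_pos_of_pos_left r (Nat.pos_of_ne_zero hq)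
    have b1 : (0 : ℝ) < (r / q.gcd r : ℕ) := by
      exact_mod_cast Nat.div_pos (Nat.gcd_le_right _ (Nat.pos_of_ne_zero hr)) g0
    have b2 : (0 : ℝ) ≤ (q / r.gcd q : ℕ) := by positivity
    have e : ((r / q.gcd r : ℕ) : ℝ) * q = (q / r.gcd q : ℕ) * r := by
      rw [Nat.gcd_comm r, Nat.cast_div_charZero (Nat.gcd_dvd_left q r),
        Nat.cast_div_charZero (Nat.gcd_dvd_right q r)]
      ring
    refine ⟨(q / r.gcd q : ℕ) * round (r * x - γ r) - (r / q.gcd r : ℕ) * round (q * x - γ q), ?_⟩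
    have c1 := le_max_left (ψ q * (r / q.gcd r : ℕ)) (ψ r * (q / r.gcd q : ℕ))
    have c2 := le_max_right (ψ q * (r / q.gcd r : ℕ)) (ψ r * (q / r.gcd q : ℕ))
    have e' := congrArg (· * x) e
    simp only [DD, Int.cast_sub, Int.cast_mul, Int.cast_natCast] at e' ⊢
    have d1 := mul_lt_mul_of_pos_left a1.1 b1
    have d2 := mul_lt_mul_of_pos_left a1.2 b1
    have d3 := mul_le_mul_of_nonneg_left a2.1.le b2
    have d4 := mul_le_mul_of_nonneg_left a2.2.le b2
    rw [abs_lt]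
    constructor <;> linarith

end Vale.Agent.P028
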